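import Crest.Agent.R182.C.Defs

/-! R182/C/Rei (owner helper57): Reiter's property. -/

set_option autoImplicit false
set_option linter.unusedVariables false
set_option linter.unusedSectionVars false
open Set Filter Topology MeasureTheory Crest.GroupTheory Crest.Geometry
open scoped Pointwise commutatorElement Matrix ENNReal

noncomputable section
namespace Crest.Agent.R182

variable {G G' : Type*} [Group G] [Group G']

/-- part a -/
theorem nl1_add_le {α : Type*} (f g : α → ℝ) : nl1 (fun x => f x + g x) ≤ nl1 f + nl1 g := by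
  unfold nl1
  rw [← ENNReal.tsum_add]
  exact ENNReal.tsum_le_tsum fun x => enorm_add_le _ _
theorem nl1_mono {α : Type*} {f g : α → ℝ} (h : ∀ x, |f x| ≤ |g x|) : nl1 f ≤ nl1 g := by
  refine ENNReal.tsum_le_tsum fun x => ?_
  rw [Real.enorm_eq_ofReal_abs, Real.enorm_eq_ofReal_abs]
  exact ENNReal.ofReal_le_ofReal (h x)
theorem nl1_sum_le {α ι : Type*} (s : Finset ι) (f : ι → α → ℝ) : nl1 (fun x => ∑ i ∈ s, f i x) ≤ ∑ i ∈ s, nl1 (f i) := by
  unfold nl1
  rw [← Summable.tsum_finsetSum fun _ _ => ENNReal.summable]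
  exact ENNReal.tsum_le_tsum fun x => enorm_sum_le _ _
theorem nl1_sum {α ι : Type*} (s : Finset ι) {f : ι → α → ℝ} (h : ∀ i x, 0 ≤ f i x) :
    nl1 (fun x => ∑ i ∈ s, f i x) = ∑ i ∈ s, nl1 (f i) := by
  unfold nl1
  rw [← Summable.tsum_finsetSum fun _ _ => ENNReal.summable]
  refine tsum_congr fun x => ?_
  rw [Real.enorm_eq_ofReal (Finset.sum_nonneg fun i _ => h i x), ENNReal.ofReal_sum_of_nonneg fun i _ => h i x]
  exact Finset.sum_congr rfl fun i _ => (Real.enorm_eq_ofReal (h i x)).symm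
theorem nl1_mul_right (f : G → ℝ) (g : G) : nl1 (fun x => f (x * g)) = nl1 f := by
  exact (Equiv.mulRight g).tsum_eq fun x => ‖f x‖ₑ
theorem rei_nl1_neg {α : Type*} (f : α → ℝ) : nl1 (fun x => -f x) = nl1 f := by
  simp only [nl1, enorm_neg]

/-- the defect of `μ` under right multiplication by `s` -/
def reiD (μ : G → ℝ) (s : G) : ℝ≥0∞ := nl1 (fun x => μ (x * s) - μ x)

theorem reiD_mul (μ : G → ℝ) (s t : G) : reiD μ (s * t) ≤ reiD μ s + reiD μ t := by
  have h := nl1_add_le (fun x => μ (x * s) - μ x) (fun x => μ (x * s * t) - μ (x * s))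
  rw [nl1_mul_right (fun y => μ (y * t) - μ y) s] at h
  refine le_trans (le_of_eq ?_) h
  unfold reiD
  congr 1; funext x; rw [mul_assoc]; ring

theorem reiD_inv (μ : G → ℝ) (s : G) : reiD μ s⁻¹ = reiD μ s := by
  unfold reiD
  rw [← nl1_mul_right _ s, ← rei_nl1_neg]
  congr 1; funext x; simp

theorem reiD_one (μ : G → ℝ) : reiD μ 1 = 0 := by simp [reiD, nl1]

theorem reiD_pow (μ : G → ℝ) (g : G) (n : ℕ) : reiD μ (g ^ n) ≤ n * reiD μ g := by
  induction n with
  | zero => simp [reiD_one]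
  | succ n ih =>
    rw [pow_succ, Nat.cast_succ, add_mul, one_mul]
    exact (reiD_mul μ _ _).trans (add_le_add ih le_rfl)

theorem reiD_zpow (μ : G → ℝ) (g : G) (e : ℤ) : reiD μ (g ^ e) ≤ e.natAbs * reiD μ g := by
  rcases Int.natAbs_eq e with h | h
  · conv_lhs => rw [h, zpow_natCast]
    exact reiD_pow μ g _
  · conv_lhs => rw [h, zpow_neg, zpow_natCast, reiD_inv]
    exact reiD_pow μ g _

/-- part a.  For `s = h * g ^ e` (`pca_mem`) and `μ' x = ∑ i ∈ range n, μ (x * (g ^ i)⁻¹)`: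
`μ' (x * s) = ∑ j ∈ [-e, n - e), μ (x * (g ^ j)⁻¹ * (g ^ j * h * (g ^ j)⁻¹))`, so the defect is at most `(n * ε + 2 |e|) * nl1 μ` and
`nl1 μ' = n * nl1 μ`.  (E.g. treat `x ↦ x * h` and `x ↦ x * g` separately: the set of `s` with defect `≤ c * nl1 μ'` is
submultiplicative.) -/
theorem Rei.step {H : Subgroup G} {g : G} (h : Rei H) (hg : Nz g H) : Rei (H ⊔ Subgroup.zpowers g) := by
  classical
  intro S hS ε hε
  choose! e he using fun s (hs : s ∈ S) => pca_mem hg (hS s hs)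
  have hε2 : ε / 2 ≠ 0 := by simp [hε]
  obtain ⟨n, hn⟩ := ENNReal.exists_nat_mul_gt hε2 (b := ((∑ s ∈ S, (e s).natAbs * 2 : ℕ) : ℝ≥0∞))
    (ENNReal.natCast_ne_top _)
  have hn0 : (n : ℝ≥0∞) ≠ 0 := by
    rintro h0; rw [h0, zero_mul] at hn; exact not_lt_zero hn
  obtain ⟨μ, h0, h1, h2, h3⟩ := h ((S ×ˢ Finset.range n).image fun p => g ^ p.2 * (p.1 * (g ^ e p.1)⁻¹) * (g ^ p.2)⁻¹)
    (by
      intro s hs
      obtain ⟨⟨s, i⟩, hp, rfl⟩ := Finset.mem_image.1 hs
      exact (pca_nz.2 (pow_mem (pca_nz.1 hg) i) _).1 (he s (Finset.mem_product.1 hp).1)) (ε / 2) hε2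
  have hN : nl1 (fun x => ∑ i ∈ Finset.range n, μ (x * (g ^ i)⁻¹)) = n * nl1 μ := by
    rw [nl1_sum _ fun i x => h0 _]
    simp only [nl1_mul_right, Finset.sum_const, Finset.card_range, nsmul_eq_mul]
  refine ⟨fun x => ∑ i ∈ Finset.range n, μ (x * (g ^ i)⁻¹), fun x => Finset.sum_nonneg fun i _ => h0 _, ?_, ?_,
    fun s hs => ?_⟩
  · rw [hN]; exact mul_ne_zero hn0 h1
  · rw [hN]; exact ENNReal.mul_ne_top (ENNReal.natCast_ne_top _) h2
  set μ' : G → ℝ := fun x => ∑ i ∈ Finset.range n, μ (x * (g ^ i)⁻¹) with hμ'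
  have hA : reiD μ' (s * (g ^ e s)⁻¹) ≤ n * (ε / 2 * nl1 μ) := by
    unfold reiD
    simp only [hμ', ← Finset.sum_sub_distrib]
    refine (nl1_sum_le _ _).trans ?_
    refine (Finset.sum_le_card_nsmul _ _ (ε / 2 * nl1 μ) fun i hi => ?_).trans (by simp)
    refine le_trans (le_of_eq ?_) (h3 _ (Finset.mem_image.2 ⟨(s, i), Finset.mem_product.2 ⟨hs, hi⟩, rfl⟩))
    rw [← nl1_mul_right _ (g ^ i)]
    congr 1; funext x; simp [mul_assoc]
  have hB : reiD μ' g ≤ 2 * nl1 μ := by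
    have h4 := nl1_add_le (fun x => μ (x * g)) (fun x => -μ (x * (g * (g ^ n)⁻¹)))
    rw [rei_nl1_neg, nl1_mul_right, nl1_mul_right, ← two_mul] at h4
    refine le_trans (le_of_eq ?_) h4
    unfold reiD
    congr 1; funext x
    have h5 := Finset.sum_range_sub' (fun i => μ (x * g * (g ^ i)⁻¹)) n
    simp only [hμ', ← Finset.sum_sub_distrib]
    rw [← sub_eq_add_neg, ← mul_assoc]
    refine Eq.trans (Finset.sum_congr rfl fun i _ => ?_) (h5.trans (by simp))
    congr 2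
    rw [pow_succ']; group
  have hC : ((e s).natAbs : ℝ≥0∞) * 2 ≤ n * (ε / 2) := by
    refine le_trans ?_ hn.le
    exact_mod_cast Finset.single_le_sum (f := fun s => (e s).natAbs * 2) (fun _ _ => Nat.zero_le _) hs
  calc reiD μ' s = reiD μ' (s * (g ^ e s)⁻¹ * g ^ e s) := by rw [inv_mul_cancel_right]
    _ ≤ n * (ε / 2 * nl1 μ) + (e s).natAbs * (2 * nl1 μ) :=
        (reiD_mul _ _ _).trans (add_le_add hA ((reiD_zpow _ _ _).trans (by gcongr)))
    _ ≤ n * (ε / 2 * nl1 μ) + n * (ε / 2 * nl1 μ) := by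
        rw [← mul_assoc ((e s).natAbs : ℝ≥0∞), ← mul_assoc (n : ℝ≥0∞)]
        gcongr
    _ = ε * nl1 μ' := by rw [hN, ← mul_add, ← add_mul, ENNReal.add_halves]; ring
theorem PC.rei {H : Subgroup G} (h : PC H) : Rei H := by
  classical
  induction h with
  | bot =>
    intro S hS ε hε
    have h1 : nl1 (fun x : G => if x = 1 then (1 : ℝ) else 0) = 1 := by
      unfold nl1
      rw [tsum_eq_single 1 fun x hx => by simp [hx]]
      simp
    refine ⟨fun x => if x = 1 then 1 else 0, fun x => by positivity, by simp [h1], by simp [h1], fun s hs => ?_⟩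
    rw [Subgroup.mem_bot.1 (hS s hs)]
    simp [nl1]
  | step H g _ hg ih => exact ih.step hg
/-- part a.  `μ' x = ∑ r, μ (x * r⁻¹)` over representatives `r` of the right cosets; `s * r⁻¹ = r'⁻¹ * (r' * s * r⁻¹)` with `r ↦ r'` a
permutation -/
theorem Rei.top {H : Subgroup G} [H.FiniteIndex] (h : Rei H) : Rei (⊤ : Subgroup G) := by
  classical
  intro S hS ε hε
  have : Fintype (G ⧸ H) := Fintype.ofFinite _
  obtain ⟨μ, h0, h1, h2, h3⟩ := h ((S ×ˢ (Finset.univ : Finset (G ⧸ H))).image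
      fun p => (p.1 • p.2).out⁻¹ * (p.1 * p.2.out))
    (by
      intro s hs
      obtain ⟨⟨s, q⟩, -, rfl⟩ := Finset.mem_image.1 hs
      refine QuotientGroup.eq.1 ?_
      rw [QuotientGroup.out_eq']
      exact (MulAction.Quotient.coe_smul_out H s q).symm) ε hε
  have hN : nl1 (fun x => ∑ q : G ⧸ H, μ (x * q.out)) = Fintype.card (G ⧸ H) * nl1 μ := by
    rw [nl1_sum _ fun i x => h0 _]
    simp only [nl1_mul_right, Finset.sum_const, Finset.card_univ, nsmul_eq_mul]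
  refine ⟨fun x => ∑ q : G ⧸ H, μ (x * q.out), fun x => Finset.sum_nonneg fun i _ => h0 _, ?_, ?_, fun s hs => ?_⟩
  · rw [hN]; exact mul_ne_zero (Nat.cast_ne_zero.2 Fintype.card_ne_zero) h1
  · rw [hN]; exact ENNReal.mul_ne_top (ENNReal.natCast_ne_top _) h2
  have e : ∀ x, ∑ q : G ⧸ H, μ (x * s * q.out) - ∑ q : G ⧸ H, μ (x * q.out) =
      ∑ q : G ⧸ H, (μ (x * s * q.out) - μ (x * (s • q).out)) := fun x => by
    rw [Finset.sum_sub_distrib, ← Equiv.sum_comp (MulAction.toPerm s) fun q : G ⧸ H => μ (x * q.out)]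
    rfl
  simp only [e]
  refine (nl1_sum_le _ _).trans ?_
  refine (Finset.sum_le_card_nsmul _ _ (ε * nl1 μ) fun q hq => ?_).trans ?_
  · refine le_trans (le_of_eq ?_) (h3 _ (Finset.mem_image.2 ⟨(s, q), Finset.mem_product.2 ⟨hs, hq⟩, rfl⟩))
    rw [← nl1_mul_right (fun x => μ (x * ((s • q).out⁻¹ * (s * q.out))) - μ x) (s • q).out]
    congr 1; funext x; simp [mul_assoc]
  · rw [hN, Finset.card_univ, nsmul_eq_mul, mul_left_comm]
theorem rei_of_vpc (h : IsVirtuallyPolycyclic G) : Rei (⊤ : Subgroup G) := by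
  obtain ⟨P, -, hP, hi⟩ := vpc_top_iff.1 h
  have : P.FiniteIndex := ⟨by rwa [Subgroup.relIndex_top_right] at hi⟩
  exact hP.rei.top
/-- part b -/
theorem nl1_comp_le {α β : Type*} (F : α → β) {m : ℕ} (hF : ∀ p, {x | F x = p}.encard ≤ m) (f : β → ℝ) :
    nl1 (fun x => f (F x)) ≤ m * nl1 f := by
  rw [nl1, nl1, ← ENNReal.tsum_fiberwise _ F, ← ENNReal.tsum_mul_left]
  refine ENNReal.tsum_le_tsum fun p => ?_
  have h1 : ∀ x : F ⁻¹' {p}, ‖f (F x)‖ₑ = ‖f p‖ₑ := fun x => by rw [show F x = p from x.2]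
  rw [tsum_congr h1, ENNReal.tsum_set_const]
  gcongr
  exact_mod_cast ENat.toENNReal_le.2 (hF p)

/-- part b: transfer along coarse equivalences.  `u p = ∑ b ∈ B, μ (p * b)`, `ν x = u (F x)`; `nl1 μ ≤ nl1 ν ≤ m * #B * nl1 μ`;
`|ν (x * t) - ν x| ≤ ∑ s ∈ B t, ∑ b ∈ B, (|μ (F x * (s * b)) - μ (F x)| + |μ (F x * b) - μ (F x)|)`. -/
theorem Rei.transfer (h : Rei (⊤ : Subgroup G')) (F : G → G') (h1 : ∀ t, ∃ B : Finset G', ∀ x, (F x)⁻¹ * F (x * t) ∈ B)
    (h2 : ∃ B : Finset G', ∀ p, ∃ x, (F x)⁻¹ * p ∈ B) (h3 : ∃ m : ℕ, ∀ p, {x | F x = p}.encard ≤ m) :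
    Rei (⊤ : Subgroup G) := by
  classical
  choose Bt hBt using h1
  obtain ⟨B, hB⟩ := h2
  obtain ⟨m, hm⟩ := h3
  choose X hX using hB
  intro S _ ε hε
  let T : Finset G' := B ∪ S.biUnion fun t => Finset.image₂ (· * ·) (Bt t) B
  let c : ℝ≥0∞ := (B.card * (2 * (m * T.card)) : ℕ)
  obtain ⟨μ, h0, h1, h2, h3⟩ := h T (fun _ _ => trivial) (ε / c) (ENNReal.div_ne_zero.2 ⟨hε, ENNReal.natCast_ne_top _⟩)
  have e1 : nl1 (fun x => ∑ b ∈ B, μ (F x * b)) = ∑ b ∈ B, nl1 fun x => μ (F x * b) :=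
    nl1_sum B (f := fun b x => μ (F x * b)) fun b x => h0 _
  have lo : nl1 μ ≤ nl1 fun x => ∑ b ∈ B, μ (F x * b) := by
    rw [e1, ← Finset.tsum_subtype]
    simp only [nl1]
    rw [← ENNReal.tsum_prod]
    refine le_trans (le_of_eq ?_) (ENNReal.tsum_comp_le_tsum_of_injective
      (f := fun p : G' => ((⟨_, hX p⟩, X p) : B × G)) (fun p q e => ?_) _)
    · simp only [mul_inv_cancel_left]
    · simp only [Prod.mk.injEq, Subtype.mk.injEq] at e
      rw [e.2] at e
      exact mul_left_cancel e.1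
  refine ⟨fun x => ∑ b ∈ B, μ (F x * b), fun x => Finset.sum_nonneg fun b _ => h0 _,
    fun e => h1 (le_zero_iff.1 (e ▸ lo)), ?_, fun t ht => ?_⟩
  · rw [e1]
    refine ENNReal.sum_ne_top.2 fun b _ => ne_top_of_le_ne_top ?_ (nl1_comp_le F hm fun p => μ (p * b))
    rw [nl1_mul_right]
    exact ENNReal.mul_ne_top (ENNReal.natCast_ne_top _) h2
  · let D : G' → ℝ := fun p => ∑ r ∈ T, |μ (p * r) - μ p|
    have hD : nl1 D ≤ T.card * (ε / c * nl1 μ) := by
      refine (nl1_sum_le T fun r p => |μ (p * r) - μ p|).trans ?_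
      rw [← nsmul_eq_mul]
      exact Finset.sum_le_card_nsmul _ _ _ fun r hr => (nl1_mono fun p => (abs_abs _).le).trans (h3 r hr)
    have hD1 : ∀ p, ∀ r ∈ T, |μ (p * r) - μ p| ≤ D p := fun p r hr =>
      Finset.single_le_sum (f := fun r => |μ (p * r) - μ p|) (fun _ _ => abs_nonneg _) hr
    have hb : ∀ b ∈ B, nl1 (fun x => μ (F (x * t) * b) - μ (F x * b)) ≤ 2 * (m * (T.card * (ε / c * nl1 μ))) := by
      intro b hb
      refine (nl1_mono (g := fun x => D (F x) + D (F x)) fun x => ?_).trans ((nl1_add_le _ _).trans ?_)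
      · have a1 := hD1 (F x) b (Finset.mem_union_left _ hb)
        have a2 := hD1 (F x) ((F x)⁻¹ * F (x * t) * b) (Finset.mem_union_right _
          (Finset.mem_biUnion.2 ⟨t, ht, Finset.mem_image₂_of_mem (hBt t x) hb⟩))
        rw [← mul_assoc, mul_inv_cancel_left] at a2
        refine le_trans ?_ (le_abs_self _)
        rw [abs_le] at a1 a2 ⊢
        constructor <;> linarith [a1.1, a1.2, a2.1, a2.2]
      · rw [← two_mul]
        exact mul_le_mul_right ((nl1_comp_le F hm D).trans (mul_le_mul_right hD _)) _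
    simp only [← Finset.sum_sub_distrib]
    refine (nl1_sum_le B fun b x => μ (F (x * t) * b) - μ (F x * b)).trans
      ((Finset.sum_le_card_nsmul _ _ _ hb).trans ?_)
    calc B.card • (2 * (m * (T.card * (ε / c * nl1 μ)))) = c * (ε / c) * nl1 μ := by
          rw [nsmul_eq_mul]
          simp only [c, Nat.cast_mul, Nat.cast_ofNat, mul_assoc]
      _ ≤ _ := mul_le_mul' ENNReal.mul_div_le lo

/-- part b.  `wl_fin` -/
theorem Rei.of_qi (h : Rei (⊤ : Subgroup G')) {S : Finset G} (hS : Subgroup.closure (S : Set G) = ⊤) {T : Finset G'}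
    (hT : Subgroup.closure (T : Set G') = ⊤) {F : G → G'}
    (hF : IsQuasiIsometry (wordDist (S : Set G)) (wordDist (T : Set G')) F) : Rei (⊤ : Subgroup G) := by
  obtain ⟨K, C, hK, hC, h1, h2⟩ := hF
  refine h.transfer F (fun t => ?_) ?_ ?_
  · refine ⟨(wl_fin hT T.finite_toSet ⌈K * wordLength (S : Set G) t + C⌉₊).toFinset, fun x => ?_⟩
    have a1 := (h1 x (x * t)).2
    simp only [wordDist, inv_mul_cancel_left] at a1
    rw [Finite.mem_toFinset]
    exact_mod_cast a1.trans (Nat.le_ceil _)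
  · refine ⟨(wl_fin hT T.finite_toSet ⌈C⌉₊).toFinset, fun p => ?_⟩
    obtain ⟨x, hx⟩ := h2 p
    rw [wd_comm hT, wordDist] at hx
    refine ⟨x, ?_⟩
    rw [Finite.mem_toFinset]
    exact_mod_cast hx.trans (Nat.le_ceil _)
  · have hf := wl_fin hS S.finite_toSet ⌈K * C⌉₊
    refine ⟨_, fun p => le_trans ?_ hf.cast_ncard_eq.ge⟩
    rcases Set.eq_empty_or_nonempty {x | F x = p} with e | ⟨x₀, h0⟩
    · rw [e, encard_empty]
      exact zero_le
    refine encard_le_encard_of_injOn (f := fun x => x₀⁻¹ * x) (fun x hx => ?_) fun x _ y _ e => mul_left_cancel e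
    have a1 := (h1 x₀ x).1
    rw [show F x₀ = p from h0, show F x = p from hx, wd_self, sub_nonpos,
      inv_mul_le_iff₀ (zero_lt_one.trans_le hK), wordDist] at a1
    exact_mod_cast a1.trans (Nat.le_ceil _)

/-- part b.  `Rei.transfer` for the inclusion -/
theorem Rei.finiteIndex (h : Rei (⊤ : Subgroup G)) (H : Subgroup G) [H.FiniteIndex] : Rei (⊤ : Subgroup H) := by
  classical
  refine h.transfer (fun x : H => (x : G)) (fun t => ⟨{(t : G)}, fun x => by simp⟩)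
    ⟨(Set.finite_range fun q : G ⧸ H => q.out⁻¹).toFinset, fun p => ?_⟩ ⟨1, fun p => ?_⟩
  · obtain ⟨x, hx⟩ := QuotientGroup.mk_out_eq_mul H p⁻¹
    refine ⟨x, (Finite.mem_toFinset _).2 ⟨(p⁻¹ : G), ?_⟩⟩
    simp only [hx, mul_inv_rev, inv_inv]
  · exact encard_le_one_iff_subsingleton.2 fun x hx y hy => Subtype.ext (hx.trans hy.symm)

theorem reic_toReal {α : Type*} (f : α → ℝ) : (nl1 f).toReal = ∑' x, |f x| := by
  unfold nl1
  rw [ENNReal.tsum_toReal_eq fun x => enorm_ne_top]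
  simp

theorem reic_norm (h : Rei (⊤ : Subgroup G)) (S : Finset G) {ε : ℝ} (hε : 0 < ε) :
    ∃ ν : G → ℝ, (∀ x, 0 ≤ ν x) ∧ HasSum ν 1 ∧ ∀ s ∈ S, ∑' x, |ν (x * s) - ν x| ≤ ε := by
  obtain ⟨μ, h0, h1, h2, h3⟩ := h S (fun _ _ => Subgroup.mem_top _) (ENNReal.ofReal ε) (by simpa using hε)
  have hs : Summable μ := (tsum_enorm_ne_top_iff_summable_norm.1 h2).of_norm
  have hm : (nl1 μ).toReal = ∑' x, μ x := by
    rw [reic_toReal]
    exact tsum_congr fun x => abs_of_nonneg (h0 x)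
  have hp : 0 < ∑' x, μ x := hm ▸ ENNReal.toReal_pos h1 h2
  refine ⟨fun x => μ x / ∑' x, μ x, fun x => div_nonneg (h0 x) hp.le, ?_, fun s hs' => ?_⟩
  · have := hs.hasSum.div_const (∑' x, μ x)
    rwa [div_self hp.ne'] at this
  · have h4 := ENNReal.toReal_mono (ENNReal.mul_ne_top ENNReal.ofReal_ne_top h2) (h3 s hs')
    rw [reic_toReal, ENNReal.toReal_mul, hm, ENNReal.toReal_ofReal hε.le] at h4
    have h5 : ∀ x, |μ (x * s) / (∑' x, μ x) - μ x / ∑' x, μ x| = |μ (x * s) - μ x| / ∑' x, μ x := fun x => by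
      rw [← sub_div, abs_div, abs_of_pos hp]
    simp only [h5]
    rw [tsum_div_const, div_le_iff₀ hp]
    exact h4

theorem reic_sum {α : Type*} {ν f : α → ℝ} (hν : Summable ν) {C : ℝ} (hf : ∀ x, |f x| ≤ C) :
    Summable fun x => ν x * f x := by
  refine Summable.of_norm_bounded (hν.abs.mul_right C) fun x => ?_
  rw [Real.norm_eq_abs, abs_mul]
  exact mul_le_mul_of_nonneg_left (hf x) (abs_nonneg _)

theorem reic_le {α : Type*} {ν f : α → ℝ} (hν : Summable ν) {C : ℝ} (hf : ∀ x, |f x| ≤ C) :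
    |∑' x, ν x * f x| ≤ (∑' x, |ν x|) * C := by
  rw [← Real.norm_eq_abs]
  refine tsum_of_norm_bounded (hν.abs.hasSum.mul_right C) fun x => ?_
  rw [Real.norm_eq_abs, abs_mul]
  exact mul_le_mul_of_nonneg_left (hf x) (abs_nonneg _)

theorem reic_mean {α : Type*} {ν f : α → ℝ} (h0 : ∀ x, 0 ≤ ν x) (hν : HasSum ν 1) {b c : ℝ} (hf : ∀ x, |f x - b| ≤ c) :
    |∑' x, ν x * f x - b| ≤ c := by
  have h1 := reic_le hν.summable hf
  have h2 : ∑' x, |ν x| = 1 := (tsum_congr fun x => abs_of_nonneg (h0 x)).trans hν.tsum_eq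
  have h3 := ((reic_sum hν.summable hf).hasSum.add (hν.mul_right b)).tsum_eq
  have h4 : ∀ x, ν x * (f x - b) + ν x * b = ν x * f x := fun x => by ring
  simp only [h4] at h3
  rw [h2, one_mul] at h1
  rw [h3, one_mul, add_sub_cancel_right]
  exact h1

theorem reic_shift {ν f : G → ℝ} (hν : Summable ν) {C : ℝ} (hf : ∀ x, |f x| ≤ C) (g : G) :
    |∑' x, ν x * f (x * g) - ∑' x, ν x * f x| ≤ (∑' x, |ν (x * g⁻¹) - ν x|) * C := by
  have hν' : Summable fun x => ν (x * g⁻¹) := (Equiv.mulRight g⁻¹).summable_iff.2 hν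
  have h1 : ∑' x, ν x * f (x * g) = ∑' x, ν (x * g⁻¹) * f x := by
    rw [← (Equiv.mulRight g⁻¹).tsum_eq]
    simp
  rw [h1, ← (reic_sum hν' hf).tsum_sub (reic_sum hν hf)]
  simp only [← sub_mul]
  exact reic_le (hν'.sub hν) hf

/-- part c.  Index `i = (S, n) : Finset G × ℕ`, `μ i` from `Rei` with `ε = 1 / (n + 1)`, `ψ i g = (∑' x, μ i x * (a (x * g) - a x)) / ∑' x, μ i x`,
`|ψ i g| ≤ c`; `ψ g` = limit along `Ultrafilter.of atTop` (compactness of `Icc`); for bounded `f`: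
`|∑' μ x * f (x * g) - ∑' μ x * f x| ≤ ‖f‖ * nl1 (μ (· * g⁻¹) - μ)`. -/
theorem Rei.exists_hom (h : Rei (⊤ : Subgroup G)) (a : G → ℝ) (ha : ∀ g, ∃ C, ∀ x, |a (x * g) - a x| ≤ C) :
    ∃ ψ : G → ℝ, (∀ g g', ψ (g * g') = ψ g + ψ g') ∧ ∀ g b c, (∀ x, |a (x * g) - a x - b| ≤ c) → |ψ g - b| ≤ c := by
  classical
  choose C hC using ha
  choose ν h0 h1 h2 using fun i : Finset G × ℕ => reic_norm h i.1 (Nat.one_div_pos_of_nat (n := i.2))
  let U : Ultrafilter (Finset G × ℕ) := Ultrafilter.of atTop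
  have hU : (U : Filter (Finset G × ℕ)) ≤ atTop := Ultrafilter.of_le _
  let p : G → Finset G × ℕ → ℝ := fun g i => ∑' x, ν i x * (a (x * g) - a x)
  have hp : ∀ g b c, (∀ x, |a (x * g) - a x - b| ≤ c) → ∀ i, |p g i - b| ≤ c := fun g b c hc i =>
    reic_mean (h0 i) (h1 i) hc
  have hl : ∀ g, ∃ y, Tendsto (p g) U (𝓝 y) := fun g => by
    obtain ⟨y, -, hy⟩ := (isCompact_Icc (a := -C g) (b := C g)).ultrafilter_le_nhds (U.map (p g))
      (le_principal_iff.2 (mem_map.2 (univ_mem' fun i => by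
        have := hp g 0 (C g) (fun x => by simpa using hC g x) i
        rw [sub_zero] at this
        exact abs_le.1 this)))
    exact ⟨y, hy⟩
  choose ψ hψ using hl
  refine ⟨ψ, fun g g' => ?_, fun g b c hc => ?_⟩
  · have k1 : Tendsto (fun i => p (g * g') i - (p g i + p g' i)) U (𝓝 (ψ (g * g') - (ψ g + ψ g'))) :=
      (hψ _).sub ((hψ g).add (hψ g'))
    have k2 : Tendsto (fun i : Finset G × ℕ => 1 / ((i.2 : ℝ) + 1) * C g') atTop (𝓝 0) := by
      have := (tendsto_one_div_add_atTop_nhds_zero_nat (𝕜 := ℝ)).mul_const (C g')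
      rw [zero_mul] at this
      have ht : Tendsto (Prod.snd : Finset G × ℕ → ℕ) atTop atTop := by
        rw [← prod_atTop_atTop_eq]
        exact tendsto_snd
      exact this.comp ht
    have k3 : Tendsto (fun i => p (g * g') i - (p g i + p g' i)) atTop (𝓝 0) := by
      refine squeeze_zero_norm' ?_ k2
      filter_upwards [eventually_ge_atTop (({g⁻¹}, 0) : Finset G × ℕ)] with i hi
      have e1 : p (g * g') i = p g i + ∑' x, ν i x * (a (x * g * g') - a (x * g)) := by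
        rw [← (reic_sum (h1 i).summable (hC g)).tsum_add (reic_sum (h1 i).summable fun x => hC g' (x * g))]
        refine tsum_congr fun x => ?_
        rw [mul_assoc]
        ring
      have e2 := reic_shift (h1 i).summable (hC g') g
      rw [e1, Real.norm_eq_abs, add_sub_add_left_eq_sub]
      exact e2.trans (mul_le_mul_of_nonneg_right (h2 i _ (hi.1 (Finset.mem_singleton_self _)))
        ((abs_nonneg _).trans (hC g' 1)))
    exact sub_eq_zero.1 (tendsto_nhds_unique k1 (k3.mono_left hU))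
  · exact le_of_tendsto' ((hψ g).sub_const b).abs (hp g b c hc)

end Crest.Agent.R182
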