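import Crest.Agent.R182.C.Count
import Crest.Agent.R182.C.Rei

/-! R182/C/Main (owner helper57): the assembly. -/

set_option autoImplicit false
set_option linter.unusedVariables false
set_option linter.unusedSectionVars false
open Set Filter Topology MeasureTheory Crest.GroupTheory Crest.Geometry
open scoped Pointwise commutatorElement Matrix ENNReal

noncomputable section
namespace Crest.Agent.R182

/-- **Block C.** -/
theorem vpc_of_StC (hC : ∀ (h k : ℕ) (M : Model h k), M.StC)
    (P H : Type*) [Group P] [Group H] (S : Finset P) (hS : Subgroup.closure (S : Set P) = ⊤)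
    (T : Finset H) (hT : Subgroup.closure (T : Set H) = ⊤) (hP : IsVirtuallyPolycyclic P) (F : H → P)
    (hF : IsQuasiIsometry (wordDist (T : Set H)) (wordDist (S : Set P)) F) : IsVirtuallyPolycyclic H := by
  obtain ⟨h, k, M, F₁, hF₁⟩ := exists_model S hS hP
  have hq := qi_comp M.closure_K hF hF₁
  obtain ⟨H₀, C, hH, h0⟩ := exists_H0 (hC h k M) hT hq
  have hR : Rei (⊤ : Subgroup H₀) := ((rei_of_vpc hP).of_qi hT hS hF).finiteIndex H₀
  have h1 : ∀ (j : Fin k) (g x : H₀), |M.chR ((F₁ ∘ F) ↑(x * g)) j - M.chR ((F₁ ∘ F) x) j -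
      (M.chR ((F₁ ∘ F) g) j - M.chR ((F₁ ∘ F) 1) j)| ≤ C * Real.log (2 + wordLength (T : Set H) (g : H)) :=
    fun j g x => (norm_le_pi_norm _ j).trans (h0 x x.2 g)
  choose ψ hψ hψ' using fun j : Fin k => hR.exists_hom (fun x => M.chR ((F₁ ∘ F) x) j) fun g =>
    ⟨C * Real.log (2 + wordLength (T : Set H) (g : H)) + |M.chR ((F₁ ∘ F) g) j - M.chR ((F₁ ∘ F) 1) j|, fun x => by
      have := h1 j g x
      have := abs_sub_abs_le_abs_sub (M.chR ((F₁ ∘ F) ↑(x * g)) j - M.chR ((F₁ ∘ F) x) j)
        (M.chR ((F₁ ∘ F) g) j - M.chR ((F₁ ∘ F) 1) j)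
      linarith⟩
  let χ : H₀ →* Multiplicative (Fin k → ℝ) := MonoidHom.mk' (fun g => Multiplicative.ofAdd fun j => ψ j g)
    fun g g' => congrArg Multiplicative.ofAdd (funext fun j => hψ j g g')
  obtain ⟨D, hD⟩ := pg_of_log hT T.finite_toSet hq (H₀.subtype.comp χ.ker.subtype)
    (Subtype.val_injective.comp Subtype.val_injective) (C := max C 0) fun x => by
      have h2 : 0 ≤ Real.log (2 + wordLength (T : Set H) (x.1 : H)) := Real.log_nonneg (by linarith [Nat.cast_nonneg (α := ℝ) (wordLength (T : Set H) (x.1 : H))])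
      refine (pi_norm_le_iff_of_nonneg (mul_nonneg (le_max_right _ _) h2)).2 fun j => ?_
      have h3 := hψ' j x.1 _ _ (h1 j x.1)
      rw [show ψ j x.1 = 0 from congrFun (congrArg Multiplicative.toAdd x.2) j, zero_sub, abs_neg] at h3
      exact h3.trans (mul_le_mul_of_nonneg_right (le_max_left _ _) h2)
  exact endgame S hS T hT hP F hF H₀ χ.ker (fun a b => by
    rw [MonoidHom.mem_ker, map_commutatorElement, commutatorElement_eq_one_iff_mul_comm, mul_comm]) hD

end Crest.Agent.R182
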