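import Crest.Agent.R182.C.Theta

/-! R182/C/Count (owner helper57): logarithmic heights give polynomial growth. -/

set_option autoImplicit false
set_option linter.unusedVariables false
set_option linter.unusedSectionVars false
open Set Filter Topology MeasureTheory Crest.GroupTheory Crest.Geometry
open scoped Pointwise commutatorElement Matrix ENNReal

noncomputable section
namespace Crest.Agent.R182

variable {h k : ℕ} {M : Model h k} {H : Type*} [Group H] {T : Set H} {F : H → M.G}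

/-- part a.  `norm_lgm_le_of_ht` (`ht (wt j) g ≤ B₀ * ‖chR g‖`), `abs_tv_le`, `volume_par` with `s = closedBall 0 ρ`,
`A = Fintype.piFinset fun _ => Finset.Icc (-N) N` -/
theorem vol_Wd : ∃ (B : ℝ) (D : ℕ), 1 ≤ B ∧ ∀ (N : ℕ) (t : ℝ), 0 ≤ t →
    volume (M.Wd N t) ≤ ENNReal.ofReal (B * (1 + N) ^ D * Real.exp (D * t)) := by
  obtain ⟨B, D, hB, hb⟩ := M.norm_lgm_le_of_ht
  set B0 : ℝ := ∑ j, ∑ i, |M.wt j i| with hB0
  have hB0' : 0 ≤ B0 := by positivity
  refine ⟨2 ^ k * (2 * B) ^ h, k + D * h + D * h * ⌈B0⌉₊,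
    one_le_mul_of_one_le_of_one_le (one_le_pow₀ one_le_two) (one_le_pow₀ (by linarith)), fun N t ht => ?_⟩
  set ρ : ℝ := B * (1 + N) ^ D * Real.exp (D * (B0 * t)) with hρ
  have hρ0 : 0 ≤ ρ := by positivity
  set A : Finset (Fin k → ℤ) := Fintype.piFinset fun _ => Finset.Icc (-(N : ℤ)) N with hA
  have hsub : M.Wd N t ⊆ M.par '' (Metric.closedBall (0 : V h) ρ ×ˢ (A : Set (Fin k → ℤ))) := by
    rintro g ⟨l, hl, rfl, hK, hp⟩
    refine ⟨M.chart l.prod, ⟨?_, ?_⟩, M.par_chart _⟩
    · rw [mem_closedBall_zero_iff]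
      have h1 := hb l (B0 * t) (by positivity) hK fun j l' hl' => by
        have h2 := M.abs_ht_le (M.wt j) l'.prod (R := t) fun i =>
          (norm_le_pi_norm (M.chR l'.prod) i).trans (hp l' hl')
        refine (le_abs_self _).trans (h2.trans (mul_le_mul_of_nonneg_right ?_ ht))
        exact Finset.single_le_sum (f := fun j => ∑ i, |M.wt j i|) (fun j _ => by positivity) (Finset.mem_univ j)
      refine h1.trans ?_
      have h3 : (l.length : ℝ) ≤ N := by exact_mod_cast hl
      rw [hρ]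
      gcongr
    · rw [Finset.mem_coe, hA, Fintype.mem_piFinset]
      intro i
      have h1 := M.abs_tv_le l.prod i
      have h2 : M.len l.prod ≤ N := (wl_le hK).trans hl
      have h3 : |(M.tv l.prod i : ℝ)| ≤ N := h1.trans (by exact_mod_cast h2)
      have h4 : |M.tv l.prod i| ≤ (N : ℤ) := by exact_mod_cast h3
      exact Finset.mem_Icc.2 (abs_le.1 h4)
  refine (measure_mono hsub).trans ?_
  rw [M.volume_par measurableSet_closedBall, Real.volume_pi_closedBall _ hρ0, Fintype.card_fin,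
    ← ENNReal.ofReal_natCast, ← ENNReal.ofReal_mul (Nat.cast_nonneg _)]
  refine ENNReal.ofReal_le_ofReal ?_
  have hcard : (A.card : ℝ) = (2 * N + 1) ^ k := by
    rw [hA, Fintype.card_piFinset, Finset.prod_const, Finset.card_univ, Fintype.card_fin, Int.card_Icc]
    have : ((N : ℤ) + 1 - -(N : ℤ)).toNat = 2 * N + 1 := by omega
    rw [this]
    push_cast
    rfl
  have hN : (1 : ℝ) ≤ 1 + N := by
    have : (0 : ℝ) ≤ N := Nat.cast_nonneg _
    linarith
  have e1 : (2 * ρ) ^ h = (2 * B) ^ h * (1 + N) ^ (D * h) * Real.exp (D * h * B0 * t) := by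
    rw [hρ, pow_mul, show (D : ℝ) * h * B0 * t = h * (D * (B0 * t)) by ring, Real.exp_nat_mul _ h, ← mul_pow, ← mul_pow]
    congr 1
    ring
  have h1 : (2 * (N : ℝ) + 1) ^ k ≤ 2 ^ k * (1 + N) ^ k := by
    rw [← mul_pow]
    gcongr
    linarith
  have h2 : (1 + (N : ℝ)) ^ k * (1 + N) ^ (D * h) ≤ (1 + N) ^ (k + D * h + D * h * ⌈B0⌉₊) := by
    rw [← pow_add]
    exact pow_le_pow_right₀ hN (Nat.le_add_right _ _)
  have h3 : Real.exp (D * h * B0 * t) ≤ Real.exp (((k + D * h + D * h * ⌈B0⌉₊ : ℕ) : ℝ) * t) := by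
    refine Real.exp_le_exp.2 (mul_le_mul_of_nonneg_right ?_ ht)
    push_cast
    have h4 : (D : ℝ) * h * B0 ≤ D * h * ⌈B0⌉₊ := mul_le_mul_of_nonneg_left (Nat.le_ceil _) (by positivity)
    have h5 : (0 : ℝ) ≤ k + D * h := by positivity
    linarith
  rw [hcard, e1]
  calc (2 * (N : ℝ) + 1) ^ k * ((2 * B) ^ h * (1 + N) ^ (D * h) * Real.exp (D * h * B0 * t))
      ≤ (2 ^ k * (1 + N) ^ k) * ((2 * B) ^ h * (1 + N) ^ (D * h) * Real.exp (D * h * B0 * t)) := by gcongr
    _ = 2 ^ k * (2 * B) ^ h * ((1 + N) ^ k * (1 + N) ^ (D * h)) * Real.exp (D * h * B0 * t) := by ring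
    _ ≤ _ := by gcongr

theorem Wd_mul {N n : ℕ} {t : ℝ} {g u : M.G} (hg : g ∈ M.Wd N t) (hu : M.len u ≤ n) : g * u ∈ M.Wd (N + n) (t + n) := by
  obtain ⟨l, hl, rfl, hK, hp⟩ := hg
  obtain ⟨m, hm, hmK, rfl⟩ := wl_ex M.closure_K u
  have hmn : m.length ≤ n := hm.le.trans hu
  refine ⟨l ++ m, by rw [List.length_append]; omega, List.prod_append, fun x hx => ?_, fun l' hl' => ?_⟩
  · rcases List.mem_append.1 hx with hx | hx
    exacts [hK x hx, hmK x hx]
  · rcases List.prefix_or_prefix_of_prefix hl' (List.prefix_append l m) with h1 | ⟨m', rfl⟩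
    · exact (hp l' h1).trans (le_add_of_nonneg_right (Nat.cast_nonneg _))
    · have h2 : m' <+: m := (List.prefix_append_right_inj l).1 hl'
      rw [List.prod_append, Model.chR_mul]
      refine (norm_add_le _ _).trans (add_le_add (hp l List.prefix_rfl) ((Model.norm_chR_le _).trans ?_))
      have h3 : M.len m'.prod ≤ n :=
        (wl_le fun x hx => hmK x (h2.subset hx)).trans (h2.length_le.trans hmn)
      exact_mod_cast h3

/-- part a.  `B₁ = {len ≤ 1}` is compact of volume `≥ 1` (`volume_exp_mul`, `len_exp_le`); every `g` lies in at most `m` of the translates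
`F x * B₁` (`wl_fin`); integrate `∑ x ∈ X, indicator (F x • B₁) ≤ m * indicator (toMeasurable A)` -/
theorem card_le_vol (hT : Subgroup.closure T = ⊤) (hf : T.Finite) (hF : IsQuasiIsometry (wordDist T) (wordDist M.K) F) :
    ∃ m : ℕ, ∀ (X : Finset H) (A : Set M.G), (∀ x ∈ X, ∀ u, M.len u ≤ 1 → F x * u ∈ A) →
      (X.card : ℝ≥0∞) ≤ m * volume A := by
  classical
  obtain ⟨K, C, hK, hC, h1, -⟩ := hF
  have hfin := wl_fin hT hf ⌈K * (2 + C)⌉₊
  refine ⟨hfin.toFinset.card, fun X A hA => ?_⟩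
  set B1 : Set M.G := {g | M.len g ≤ 1} with hB1
  have hBm : MeasurableSet B1 := (M.isCompact_ball 1).isClosed.measurableSet
  have hvol : 1 ≤ volume B1 := by
    have h2 : (fun X => M.exp X * 1) '' Metric.closedBall (0 : V h) 1 ⊆ B1 := by
      rintro _ ⟨Y, hY, rfl⟩
      rw [mem_closedBall_zero_iff] at hY
      change M.len (M.exp Y * 1) ≤ 1
      rw [mul_one]
      exact (M.len_exp_le Y).trans (Nat.ceil_le.2 (by exact_mod_cast hY))
    refine le_trans ?_ (measure_mono h2)
    rw [M.volume_exp_mul measurableSet_closedBall, Real.volume_pi_closedBall _ zero_le_one]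
    exact ENNReal.one_le_ofReal.2 (one_le_pow₀ (by norm_num))
  set S : H → Set M.G := fun x => (fun g => (F x)⁻¹ * g) ⁻¹' B1 with hS
  have hSm : ∀ x, MeasurableSet (S x) := fun x => hBm.preimage (measurable_const_mul _)
  have hSv : ∀ x, volume (S x) = volume B1 := fun x => measure_preimage_mul _ _ _
  have hpt : ∀ g, ∑ x ∈ X, (S x).indicator (1 : M.G → ℝ≥0∞) g ≤
      (hfin.toFinset.card : ℝ≥0∞) * (toMeasurable volume A).indicator 1 g := by
    intro g
    have e : ∑ x ∈ X, (S x).indicator (1 : M.G → ℝ≥0∞) g = ((X.filter fun x => g ∈ S x).card : ℝ≥0∞) := by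
      rw [Finset.card_filter]
      push_cast
      refine Finset.sum_congr rfl fun x _ => ?_
      rw [indicator_apply]
      rfl
    rw [e]
    rcases (X.filter fun x => g ∈ S x).eq_empty_or_nonempty with h0 | ⟨x, hx⟩
    · rw [h0]
      simp
    · obtain ⟨hxX, hxg⟩ := Finset.mem_filter.1 hx
      have hgA : g ∈ toMeasurable volume A := by
        have := hA x hxX _ hxg
        rw [mul_inv_cancel_left] at this
        exact subset_toMeasurable _ _ this
      rw [indicator_of_mem hgA, Pi.one_apply, mul_one, Nat.cast_le]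
      refine Finset.card_le_card_of_injOn (fun y => x⁻¹ * y) (fun y hy => ?_) fun y _ z _ e => mul_left_cancel e
      have hyg : M.len ((F y)⁻¹ * g) ≤ 1 := (Finset.mem_filter.1 (Finset.mem_coe.1 hy)).2
      have hxg' : M.len ((F x)⁻¹ * g) ≤ 1 := hxg
      have h3 : M.len ((F x)⁻¹ * F y) ≤ 2 := by
        have h4 := M.len_mul ((F x)⁻¹ * g) ((F y)⁻¹ * g)⁻¹
        rw [M.len_inv, show (F x)⁻¹ * g * ((F y)⁻¹ * g)⁻¹ = (F x)⁻¹ * F y by group] at h4
        omega
      have h5 : wordDist M.K (F x) (F y) ≤ 2 := by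
        change ((M.len ((F x)⁻¹ * F y) : ℕ) : ℝ) ≤ 2
        exact_mod_cast h3
      have h6 : wordDist T x y ≤ K * (2 + C) := by
        have h7 := (h1 x y).1
        have h8 : K⁻¹ * wordDist T x y ≤ 2 + C := by linarith
        rwa [inv_mul_le_iff₀ (by linarith)] at h8
      rw [Finset.mem_coe, Set.Finite.mem_toFinset]
      change wordLength T (x⁻¹ * y) ≤ ⌈K * (2 + C)⌉₊
      have h9 : ((wordLength T (x⁻¹ * y) : ℕ) : ℝ) ≤ ⌈K * (2 + C)⌉₊ := h6.trans (Nat.le_ceil _)
      exact_mod_cast h9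
  calc (X.card : ℝ≥0∞) = ∑ x ∈ X, 1 := by simp
    _ ≤ ∑ x ∈ X, ∫⁻ g, (S x).indicator 1 g := Finset.sum_le_sum fun x _ => by
        rw [lintegral_indicator_one (hSm x), hSv]
        exact hvol
    _ = ∫⁻ g, ∑ x ∈ X, (S x).indicator 1 g :=
        (lintegral_finsetSum X fun x _ => measurable_one.indicator (hSm x)).symm
    _ ≤ ∫⁻ g, (hfin.toFinset.card : ℝ≥0∞) * (toMeasurable volume A).indicator 1 g := lintegral_mono hpt
    _ = _ := by
        rw [lintegral_const_mul _ (measurable_one.indicator (measurableSet_toMeasurable _ _)),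
          lintegral_indicator_one (measurableSet_toMeasurable _ _), measure_toMeasurable]

theorem cntb_mul {N n : ℕ} {t : ℝ} {g u : M.G} (hg : g ∈ M.Wd N t) (hu : M.len u ≤ n)
    (ht : ‖M.chR g‖ + n ≤ t) : g * u ∈ M.Wd (N + n) t := by
  obtain ⟨l, h1, rfl, h3, h4⟩ := hg
  obtain ⟨l₂, e1, e2, e3⟩ := wl_ex M.closure_K u
  have hl : l₂.length ≤ n := e1.le.trans hu
  refine ⟨l ++ l₂, by rw [List.length_append]; omega, by rw [List.prod_append, e3], fun x hx => ?_,
    fun l' hl' => ?_⟩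
  · rcases List.mem_append.1 hx with hx | hx
    exacts [h3 x hx, e2 x hx]
  · rcases List.prefix_or_prefix_of_prefix hl' (List.prefix_append l l₂) with h | ⟨l'', rfl⟩
    · exact h4 l' h
    · have hp : l'' <+: l₂ := (List.prefix_append_right_inj l).1 hl'
      have h5 : M.len l''.prod ≤ n :=
        (wl_le fun x hx => e2 x (hp.subset hx)).trans (hp.length_le.trans hl)
      have h6 : (M.len l''.prod : ℝ) ≤ n := by exact_mod_cast h5
      rw [List.prod_append, M.chR_mul]
      exact (norm_add_le _ _).trans (by linarith [M.norm_chR_le l''.prod])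

/-- part b.  For a finite `S ⊆ K` with `wordLength T s ≤ R`: by induction on `n`, `F w ∈ Wd (len (F 1) + R' n) (t N)` for `w ∈ S ^ n`, `n ≤ N`, where
`t N = c + C log (2 + R N)` bounds `‖chR (F w)‖ + R'` (append a geodesic word for `(F w)⁻¹ * F (w s)`);
`exp (D C log (2 + R N)) ≤ (2 + R N) ^ (D ⌈C⌉₊)`; the degree does not depend on `S`. -/
theorem pg_of_log (hT : Subgroup.closure T = ⊤) (hf : T.Finite) (hF : IsQuasiIsometry (wordDist T) (wordDist M.K) F)
    {K : Type*} [Group K] (i : K →* H) (hi : Function.Injective i) {C : ℝ}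
    (hC : ∀ x, ‖M.chR (F (i x)) - M.chR (F 1)‖ ≤ C * Real.log (2 + wordLength T (i x))) : ∃ D, PG K D := by
  classical
  obtain ⟨B, D, hB, hvol⟩ := vol_Wd (M := M)
  obtain ⟨m, hm⟩ := card_le_vol hT hf hF
  obtain ⟨Kq, Cq, hKq, hCq, hq, -⟩ := hF
  obtain ⟨c, hc⟩ : ∃ c : ℕ, C ≤ c := ⟨⌈C⌉₊, Nat.le_ceil C⟩
  refine ⟨D + D * c, fun S hS => ?_⟩
  obtain ⟨R, hR⟩ : ∃ R : ℕ, ∀ s ∈ S, wordLength T (i s) ≤ R := by
    obtain ⟨R, hR⟩ := (hS.image fun s => wordLength T (i s)).bddAbove
    exact ⟨R, fun s hs => hR ⟨s, hs, rfl⟩⟩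
  obtain ⟨R', hR'⟩ : ∃ R' : ℕ, Kq * R + Cq ≤ R' := ⟨_, Nat.le_ceil _⟩
  obtain ⟨a, ha⟩ : ∃ a : ℝ, a = ‖M.chR (F 1)‖ + M.len (F 1) + R' := ⟨_, rfl⟩
  have ha0 : 0 ≤ a := by rw [ha]; positivity
  refine ⟨⌈m * B * (2 + M.len (F 1) + R') ^ D * Real.exp (D * (a + 1)) * (2 + R) ^ (D * c)⌉₊, fun N => ?_⟩
  have hy : (1 : ℝ) ≤ 2 + R * N := by have : (0 : ℝ) ≤ R * N := by positivity
                                      linarith
  have hlog : 0 ≤ c * Real.log (2 + R * N) := mul_nonneg (Nat.cast_nonneg _) (Real.log_nonneg hy)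
  have h1 : ‖M.chR 1‖ ≤ 0 := by simpa [M.len_one] using M.norm_chR_le 1
  have key : ∀ n, n ≤ N → ∀ w ∈ S ^ n, wordLength T (i w) ≤ R * n ∧
      F (i w) ∈ M.Wd (M.len (F 1) + R' * n) (a + c * Real.log (2 + R * N)) := by
    intro n
    induction n with
    | zero =>
      intro _ w hw
      rw [pow_zero, Set.mem_one] at hw
      subst hw
      refine ⟨by rw [map_one, wl_one]; exact Nat.zero_le _, ?_⟩
      have h0 : (1 : M.G) ∈ M.Wd 0 (a + c * Real.log (2 + R * N)) :=
        ⟨[], le_rfl, rfl, by simp, fun l' hl' => by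
          rw [List.prefix_nil.1 hl', List.prod_nil]; linarith⟩
      have := cntb_mul h0 (le_refl (M.len (F 1))) (by
        have : (0 : ℝ) ≤ ‖M.chR (F 1)‖ + R' := by positivity
        linarith)
      simpa using this
    | succ n ih =>
      intro hn w hw
      rw [pow_succ] at hw
      obtain ⟨w', hw', s, hs, rfl⟩ := hw
      obtain ⟨i1, i2⟩ := ih (by omega) w' hw'
      refine ⟨by
        simp only [map_mul]
        exact (wl_mul hT _ _).trans (by have := hR s hs; rw [mul_add]; omega), ?_⟩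
      have e1 : M.len ((F (i w'))⁻¹ * F (i (w' * s))) ≤ R' := by
        have e2 := (hq (i w') (i (w' * s))).2
        have e3 : (wordLength T (i s) : ℝ) ≤ R := by exact_mod_cast hR s hs
        rw [wordDist, wordDist, map_mul, inv_mul_cancel_left] at e2
        have e4 : Kq * (wordLength T (i s) : ℝ) ≤ Kq * R := by gcongr
        have e5 : (M.len ((F (i w'))⁻¹ * F (i (w' * s))) : ℝ) ≤ R' := by
          rw [map_mul, Model.len]; linarith
        exact_mod_cast e5
      have e6 : ‖M.chR (F (i w'))‖ + R' ≤ a + c * Real.log (2 + R * N) := by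
        have e7 : (wordLength T (i w') : ℝ) ≤ R * N := by
          exact_mod_cast i1.trans (Nat.mul_le_mul_left R (by omega))
        have e8 : (0 : ℝ) ≤ wordLength T (i w') := Nat.cast_nonneg _
        have e9 : C * Real.log (2 + wordLength T (i w')) ≤ c * Real.log (2 + R * N) :=
          (mul_le_mul_of_nonneg_right hc (Real.log_nonneg (by linarith))).trans (by gcongr)
        have e10 := norm_sub_norm_le (M.chR (F (i w'))) (M.chR (F 1))
        have e11 : (0 : ℝ) ≤ M.len (F 1) := Nat.cast_nonneg _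
        linarith [hC w']
      have := cntb_mul i2 e1 e6
      rwa [mul_inv_cancel_left, add_assoc, ← mul_add_one] at this
  have hfin := grow_fin hS N
  have hX := (hm (hfin.toFinset.image i) (M.Wd (M.len (F 1) + R' * N + 1)
    (a + c * Real.log (2 + R * N) + (1 : ℕ))) fun x hx u hu => by
      obtain ⟨w, hw, rfl⟩ := Finset.mem_image.1 hx
      exact Wd_mul (key N le_rfl w (hfin.mem_toFinset.1 hw)).2 hu).trans
    (mul_le_mul_right (hvol _ _ (by positivity)) _)
  rw [Finset.card_image_of_injective _ hi, ← Set.ncard_eq_toFinset_card _ hfin, ← ENNReal.ofReal_natCast,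
    ← ENNReal.ofReal_natCast m, ← ENNReal.ofReal_mul (Nat.cast_nonneg _),
    ENNReal.ofReal_le_ofReal_iff (by positivity)] at hX
  have e1 : Real.exp (D * (a + c * Real.log (2 + R * N) + (1 : ℕ))) =
      Real.exp (D * (a + 1)) * (2 + R * N) ^ (D * c) := by
    rw [← Real.exp_log (pow_pos (by linarith : (0 : ℝ) < 2 + R * N) (D * c)), Real.log_pow, ← Real.exp_add]
    push_cast
    ring_nf
  have hN : (0 : ℝ) ≤ N := Nat.cast_nonneg _
  have e2 : (1 : ℝ) + (M.len (F 1) + R' * N + 1 : ℕ) ≤ (2 + M.len (F 1) + R') * (N + 1) := by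
    have : (0 : ℝ) ≤ M.len (F 1) * N := by positivity
    have : (0 : ℝ) ≤ R' := Nat.cast_nonneg _
    push_cast
    nlinarith
  have e3 : (2 : ℝ) + R * N ≤ (2 + R) * (N + 1) := by
    have : (0 : ℝ) ≤ R := Nat.cast_nonneg _
    nlinarith
  rw [e1] at hX
  have e4 : (((S ^ N).ncard : ℕ) : ℝ) ≤
      (m * B * (2 + M.len (F 1) + R') ^ D * Real.exp (D * (a + 1)) * (2 + R) ^ (D * c)) *
        (N + 1) ^ (D + D * c) :=
    calc _ ≤ _ := hX
      _ ≤ m * (B * ((2 + M.len (F 1) + R') * (N + 1)) ^ D *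
          (Real.exp (D * (a + 1)) * ((2 + R) * (N + 1)) ^ (D * c))) := by gcongr
      _ = _ := by rw [mul_pow, mul_pow, pow_add]; ring
  have e5 := e4.trans (mul_le_mul_of_nonneg_right (Nat.le_ceil _) (by positivity))
  exact_mod_cast e5

end Crest.Agent.R182
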