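import Crest.Agent.R182.A.Main
import Crest.Agent.R182.A.ApiPoly
import Crest.Agent.R182.A.ApiVol
import Crest.Agent.R182.E.Main

/-! R182/C/Defs (owner helper57): from the logarithmic height theorem to the quasi-isometric rigidity of polycyclic groups; definitions. -/

set_option autoImplicit false
set_option linter.unusedVariables false
set_option linter.unusedSectionVars false
open Set Filter Topology MeasureTheory Crest.GroupTheory Crest.Geometry
open scoped Pointwise commutatorElement Matrix ENNReal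

noncomputable section
namespace Crest.Agent.R182

/-- the `ℓ¹` norm -/
def nl1 {G : Type*} (f : G → ℝ) : ℝ≥0∞ := ∑' x, ‖f x‖ₑ

/-- Reiter's property for right multiplication by the elements of `H` -/
def Rei {G : Type*} [Group G] (H : Subgroup G) : Prop :=
  ∀ S : Finset G, (∀ s ∈ S, s ∈ H) → ∀ ε : ℝ≥0∞, ε ≠ 0 → ∃ μ : G → ℝ, (∀ x, 0 ≤ μ x) ∧ nl1 μ ≠ 0 ∧ nl1 μ ≠ ⊤ ∧
    ∀ s ∈ S, nl1 (fun x => μ (x * s) - μ x) ≤ ε * nl1 μ

namespace Model
variable {h k : ℕ} (M : Model h k)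

/-- the height vector -/
def chR (g : M.G) : Fin k → ℝ := fun i => (M.tv g i : ℝ)

/-- self quasi-isometries with constant `K` -/
def QK (K : ℝ) (φ : M.G → M.G) : Prop :=
  (∀ x x', K⁻¹ * wordDist M.K x x' - K ≤ wordDist M.K (φ x) (φ x') ∧
    wordDist M.K (φ x) (φ x') ≤ K * wordDist M.K x x' + K) ∧ ∀ y, ∃ x, wordDist M.K y (φ x) ≤ K

/-- the logarithmic height theorem -/
def StC : Prop := ∃ W : Set (Matrix (Fin k) (Fin k) ℝ), W.Finite ∧ ∀ K : ℝ, 1 ≤ K → ∃ C : ℝ, ∀ φ, M.QK K φ →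
  ∃ L ∈ W, ∀ p g, ‖M.chR (φ (p * g)) - M.chR (φ p) - L *ᵥ M.chR g‖ ≤ C * Real.log (2 + M.len g)

/-- end points of words of length `≤ N` all of whose prefixes have heights `≤ H` -/
def Wd (N : ℕ) (H : ℝ) : Set M.G := {g | ∃ l : List M.G, l.length ≤ N ∧ l.prod = g ∧ (∀ x ∈ l, x ∈ M.K ∨ x⁻¹ ∈ M.K) ∧
  ∀ l', l' <+: l → ‖M.chR l'.prod‖ ≤ H}

end Model

end Crest.Agent.R182
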