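import Crest.Agent.R182.C.Defs

/-! R182/C/Theta (owner helper57): the finite index subgroup that preserves heights up to a logarithmic error. -/

set_option autoImplicit false
set_option linter.unusedVariables false
set_option linter.unusedSectionVars false
open Set Filter Topology MeasureTheory Crest.GroupTheory Crest.Geometry
open scoped Pointwise commutatorElement Matrix ENNReal

noncomputable section
namespace Crest.Agent.R182

variable {h k : ℕ} {M : Model h k} {H : Type*} [Group H] {T : Set H} {F : H → M.G}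

theorem Model.chR_mul (g g' : M.G) : M.chR (g * g') = M.chR g + M.chR g' := by
  funext i
  simp [Model.chR, M.tv_mul]

theorem Model.norm_chR_le (g : M.G) : ‖M.chR g‖ ≤ M.len g := by
  exact (pi_norm_le_iff_of_nonneg (Nat.cast_nonneg _)).2 fun i => M.abs_tv_le g i

theorem Model.norm_chR_sub_le (g g' : M.G) : ‖M.chR g' - M.chR g‖ ≤ wordDist M.K g g' := by
  have := Model.chR_mul g (g⁻¹ * g')
  rw [mul_inv_cancel_left] at this
  rw [this, add_sub_cancel_left]
  exact Model.norm_chR_le _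

/-- part a.  Choose `F' : M.G → H` with `wordDist y (F (F' y)) ≤ C`; the maps `φ t = F (t * F' ·)` are `QK K` for one `K` (`wd_mul`, `wd_tri`) and
`wordDist (φ t (F x)) (F (t * x)) ≤ K`.  Use `p = F x`, `g = (F x)⁻¹ * F y`; `log (2 + K d + C) ≤ C' * log (2 + d)`, `1 ≤ 2 * log (2 + d)`. -/
theorem exists_L (hM : M.StC) (hT : Subgroup.closure T = ⊤) (hF : IsQuasiIsometry (wordDist T) (wordDist M.K) F) :
    ∃ (W : Set (Matrix (Fin k) (Fin k) ℝ)) (C : ℝ), W.Finite ∧ ∀ t : H, ∃ L ∈ W, ∀ x y,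
      ‖M.chR (F (t * y)) - M.chR (F (t * x)) - L *ᵥ (M.chR (F y) - M.chR (F x))‖ ≤ C * Real.log (2 + wordDist T x y) := by
  obtain ⟨W, hW, hM⟩ := hM
  obtain ⟨K, C, hK, hC, h1, h2⟩ := hF
  choose F' hF' using h2
  have hK0 : 0 < K := by linarith
  have tri := wd_tri M.closure_K
  have com := wd_comm M.closure_K
  have hn : ∀ x y : M.G, 0 ≤ wordDist M.K x y := fun _ _ => Nat.cast_nonneg _
  have lo : ∀ x x', wordDist T x x' ≤ K * (wordDist M.K (F x) (F x') + C) := fun x x' =>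
    (inv_mul_le_iff₀ hK0).1 (by linarith [(h1 x x').1])
  have up : ∀ t x x', wordDist M.K (F (t * x)) (F (t * x')) ≤ K * (K * (wordDist M.K (F x) (F x') + C)) + C :=
    fun t x x' => (h1 _ _).2.trans (by rw [wd_mul]; gcongr; exact lo x x')
  have hKC : 0 ≤ K ^ 2 * C := by positivity
  have hK2 : 1 ≤ K ^ 2 := one_le_pow₀ hK
  obtain ⟨K', hK'⟩ : ∃ K', K' = K ^ 2 * (1 + 3 * C) + 3 * C := ⟨_, rfl⟩
  have hK1 : 1 ≤ K' := by linarith
  have near : ∀ t x, wordDist M.K (F (t * x)) (F (t * F' (F x))) ≤ 2 * K ^ 2 * C + C := fun t x =>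
    (up t _ _).trans (by nlinarith [mul_le_mul_of_nonneg_left (hF' (F x)) (sq_nonneg K)])
  obtain ⟨C₁, hC₁⟩ := hM K' hK1
  refine ⟨W, (2 * K' + |C₁| * Real.log (K + C)) * 2 + |C₁|, hW, fun t => ?_⟩
  refine (hC₁ (fun y => F (t * F' y)) ⟨fun y y' => ?_, fun y => ⟨F (t⁻¹ * F' y), ?_⟩⟩).imp
    fun L ⟨hL, hφ⟩ => ⟨hL, fun x y => ?_⟩
  · have a1 := hF' y
    have a2 := hF' y'
    have a3 := tri y (F (F' y)) y'
    have a4 := tri (F (F' y)) (F (F' y')) y'
    have a5 := tri (F (F' y)) y (F (F' y'))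
    have a6 := tri y y' (F (F' y'))
    have a7 := up t (F' y) (F' y')
    have a8 := up t⁻¹ (t * F' y) (t * F' y')
    have a9 := hn y y'
    have a10 := hn (F (t * F' y)) (F (t * F' y'))
    rw [inv_mul_cancel_left, inv_mul_cancel_left] at a8
    rw [com (F (F' y')) y'] at a4
    rw [com _ y] at a5
    have b1 : 0 ≤ K' - K ^ 2 := by linarith
    constructor
    · rw [sub_le_iff_le_add, inv_mul_le_iff₀ (by linarith)]
      have b2 : K ^ 2 * C + 3 * C ≤ K' * K' := le_trans (by linarith) (le_mul_of_one_le_right (by linarith) hK1)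
      beta_reduce
      linarith [mul_nonneg b1 a10]
    · nlinarith [mul_nonneg b1 a9, mul_le_mul_of_nonneg_left (a5.trans (add_le_add a1 (a6.trans (add_le_add le_rfl a2))))
        (sq_nonneg K)]
  · have a1 := near t (t⁻¹ * F' y)
    rw [mul_inv_cancel_left] at a1
    linarith [tri y (F (F' y)) (F (t * F' (F (t⁻¹ * F' y)))), hF' y]
  have a1 := hφ (F x) ((F x)⁻¹ * F y)
  have a2 := Model.chR_mul (F x) ((F x)⁻¹ * F y)
  rw [mul_inv_cancel_left] at a1 a2
  rw [← sub_eq_iff_eq_add'.2 a2] at a1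
  have a3 := (Model.norm_chR_sub_le _ _).trans (near t x)
  have a4 := (Model.norm_chR_sub_le _ _).trans (near t y)
  have a5 : (M.len ((F x)⁻¹ * F y) : ℝ) ≤ K * wordDist T x y + C := (h1 x y).2
  have a6 : 0 ≤ wordDist T x y := Nat.cast_nonneg _
  have a7 : 1 ≤ 2 * Real.log (2 + wordDist T x y) := by
    linarith [Real.log_two_gt_d9, Real.log_le_log two_pos (le_add_of_nonneg_right a6)]
  have a8 : Real.log (2 + M.len ((F x)⁻¹ * F y)) ≤ Real.log (K + C) + Real.log (2 + wordDist T x y) := by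
    rw [← Real.log_mul (by positivity) (by positivity)]
    exact Real.log_le_log (by positivity) (by nlinarith)
  have a9 := (le_abs_self _).trans ((abs_mul C₁ _).le.trans (mul_le_mul_of_nonneg_left
    ((abs_of_nonneg (Real.log_nonneg (by linarith [Nat.cast_nonneg (α := ℝ) (M.len ((F x)⁻¹ * F y))]))).le.trans a8)
    (abs_nonneg _)))
  have a10 : 0 ≤ 2 * K' + |C₁| * Real.log (K + C) := by
    have := Real.log_nonneg (x := K + C) (by linarith)
    positivity
  have a11 := (norm_sub_le _ _).trans (add_le_add ((norm_add_le _ _).trans (add_le_add a1 a3)) a4)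
  calc _ = _ := by congr 1; abel
    _ ≤ _ := a11
    _ ≤ _ := by nlinarith [mul_le_mul_of_nonneg_left a7 a10]

theorem thetab_log {a C K D E : ℝ} (hC : 0 ≤ C) (hK : 0 ≤ K) (hD : 0 ≤ D)
    (h : ∀ n : ℕ, n * a ≤ C * Real.log (2 + K * (n + D)) + E) : a ≤ 0 := by
  by_contra ha
  push Not at ha
  have hp : 0 < 2 * (C * K + 1) := by positivity
  obtain ⟨ε, hε⟩ : ∃ ε, ε = a / (2 * (C * K + 1)) := ⟨_, rfl⟩
  have hε0 : 0 < ε := hε ▸ div_pos ha hp
  have hεa : ε * (2 * (C * K + 1)) = a := by rw [hε]; field_simp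
  obtain ⟨n, hn⟩ := exists_nat_gt ((C * (ε * (2 + K * D) - 1 - Real.log ε) + E) / (a / 2))
  rw [div_lt_iff₀ (by positivity)] at hn
  have hn0 : (0 : ℝ) ≤ n := n.cast_nonneg
  have hx : 0 < 2 + K * (n + D) := by positivity
  have h1 := Real.log_le_sub_one_of_pos (mul_pos hε0 hx)
  rw [Real.log_mul hε0.ne' hx.ne'] at h1
  have h2 : C * Real.log (2 + K * (n + D)) ≤ C * (ε * (2 + K * (n + D)) - 1 - Real.log ε) :=
    mul_le_mul_of_nonneg_left (by linarith) hC
  have h3 : n * (ε * (2 * (C * K + 1))) = n * a := by rw [hεa]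
  have h4 : 0 ≤ n * ε := by positivity
  have := h n
  nlinarith

theorem thetab_bound (A : Matrix (Fin k) (Fin k) ℝ) : ∃ B : ℝ, 0 < B ∧ ∀ v, ‖A *ᵥ v‖ ≤ B * ‖v‖ :=
  (LinearMap.toContinuousLinearMap A.mulVecLin).bound

theorem thetab_pow (i : Fin k) (n : ℕ) : M.chR (M.gen i ^ n) = (n : ℝ) • Pi.single i (1 : ℝ) := by
  induction n with
  | zero =>
    have h1 := M.chR_mul 1 1
    rw [mul_one] at h1
    rw [pow_zero, Nat.cast_zero, zero_smul]
    exact left_eq_add.1 h1
  | succ n ih =>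
    have h1 : M.chR (M.gen i) = Pi.single i (1 : ℝ) := by
      funext j
      by_cases hj : j = i
      · simp [Model.chR, M.tv_gen, hj]
      · simp [Model.chR, M.tv_gen, hj]
    rw [pow_succ, M.chR_mul, ih, h1, Nat.cast_succ, add_smul, one_smul]

/-- part b.  Take `y n` with `F (y n)` within `C` of `F 1 * gen i ^ n`: `‖A *ᵥ (n • e i + O(1))‖ ≤ C log (2 + O(n))` -/
theorem mat_eq_zero (hT : Subgroup.closure T = ⊤) (hF : IsQuasiIsometry (wordDist T) (wordDist M.K) F)
    {A : Matrix (Fin k) (Fin k) ℝ} {C : ℝ}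
    (hA : ∀ y, ‖A *ᵥ (M.chR (F y) - M.chR (F 1))‖ ≤ C * Real.log (2 + wordDist T 1 y)) : A = 0 := by
  obtain ⟨K, C₀, hK, hC₀, hq, hs⟩ := hF
  obtain ⟨B, hB, hAB⟩ := thetab_bound A
  have key : ∀ i : Fin k, ‖A *ᵥ Pi.single i (1 : ℝ)‖ ≤ 0 := fun i => by
    refine thetab_log (C := |C|) (K := K) (D := 2 * C₀) (E := B * C₀) (abs_nonneg C) (by linarith) (by linarith)
      fun n => ?_
    obtain ⟨y, hy⟩ := hs (F 1 * M.gen i ^ n)
    have h1 := (Model.norm_chR_sub_le _ _).trans hy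
    rw [M.chR_mul, thetab_pow] at h1
    have h2 : wordDist M.K (F 1) (F 1 * M.gen i ^ n) ≤ n := by
      have := M.apilena_zpow (M.apilena_gen i) n
      rw [zpow_natCast, Int.natAbs_natCast] at this
      simp only [wordDist, inv_mul_cancel_left]
      exact_mod_cast this
    have h3 := wd_tri M.closure_K (F 1) (F 1 * M.gen i ^ n) (F y)
    have h4 : wordDist T 1 y ≤ K * (n + 2 * C₀) := by
      have h5 : K⁻¹ * wordDist T 1 y ≤ n + 2 * C₀ := by linarith [(hq 1 y).1]
      rwa [inv_mul_le_iff₀ (by linarith)] at h5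
    have h0 : 0 ≤ wordDist T 1 y := Nat.cast_nonneg _
    have h6 : C * Real.log (2 + wordDist T 1 y) ≤ |C| * Real.log (2 + K * (n + 2 * C₀)) :=
      mul_le_mul (le_abs_self C) (Real.log_le_log (by linarith) (by linarith)) (Real.log_nonneg (by linarith))
        (abs_nonneg C)
    have e : (n : ℝ) • (A *ᵥ Pi.single i (1 : ℝ)) = A *ᵥ (M.chR (F y) - M.chR (F 1)) -
        A *ᵥ (M.chR (F y) - (M.chR (F 1) + (n : ℝ) • Pi.single i (1 : ℝ))) := by
      rw [← Matrix.mulVec_sub, ← Matrix.mulVec_smul]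
      congr 1
      abel
    have h7 := norm_sub_le (A *ᵥ (M.chR (F y) - M.chR (F 1)))
      (A *ᵥ (M.chR (F y) - (M.chR (F 1) + (n : ℝ) • Pi.single i (1 : ℝ))))
    rw [← e, norm_smul, Real.norm_natCast] at h7
    have h8 := (hAB _).trans (mul_le_mul_of_nonneg_left h1 hB.le)
    linarith [hA y]
  ext j i
  have := congrFun (norm_le_zero_iff.1 (key i)) j
  simpa using this

/-- part b.  `θ t = L` is a monoid homomorphism with finite range (`mat_eq_zero`); `H₀ = ker θ.toHomUnits` -/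
theorem exists_H0 (hM : M.StC) (hT : Subgroup.closure T = ⊤) (hF : IsQuasiIsometry (wordDist T) (wordDist M.K) F) :
    ∃ (H₀ : Subgroup H) (C : ℝ), H₀.FiniteIndex ∧ ∀ t ∈ H₀, ∀ y,
      ‖M.chR (F (t * y)) - M.chR (F t) - (M.chR (F y) - M.chR (F 1))‖ ≤ C * Real.log (2 + wordLength T y) := by
  obtain ⟨W, C, hW, hL⟩ := exists_L hM hT hF
  choose θ hθW hθ using hL
  have h1 : θ 1 = 1 := by
    refine (sub_eq_zero.1 (mat_eq_zero (A := 1 - θ 1) (C := C) hT hF fun y => ?_)).symm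
    have := hθ 1 1 y
    rwa [one_mul, one_mul, ← Matrix.one_mulVec (M.chR (F y) - M.chR (F 1)), Matrix.mulVec_mulVec, mul_one,
      ← Matrix.sub_mulVec] at this
  have hm : ∀ s t, θ (s * t) = θ s * θ t := fun s t => by
    obtain ⟨B, hB, hb⟩ := thetab_bound (θ s)
    refine sub_eq_zero.1 (mat_eq_zero (C := C + C + B * C) hT hF fun y => ?_)
    have a1 := hθ (s * t) 1 y
    have a2 := hθ s (t * 1) (t * y)
    have a3 := (hb _).trans (mul_le_mul_of_nonneg_left (hθ t 1 y) hB.le)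
    rw [wd_mul, ← mul_assoc, ← mul_assoc] at a2
    have e : (θ (s * t) - θ s * θ t) *ᵥ (M.chR (F y) - M.chR (F 1)) =
        (M.chR (F (s * t * y)) - M.chR (F (s * t * 1)) - θ s *ᵥ (M.chR (F (t * y)) - M.chR (F (t * 1)))) -
        (M.chR (F (s * t * y)) - M.chR (F (s * t * 1)) - θ (s * t) *ᵥ (M.chR (F y) - M.chR (F 1))) +
        θ s *ᵥ (M.chR (F (t * y)) - M.chR (F (t * 1)) - θ t *ᵥ (M.chR (F y) - M.chR (F 1))) := by
      rw [Matrix.sub_mulVec, ← Matrix.mulVec_mulVec, Matrix.mulVec_sub (θ s) (M.chR (F (t * y)) - M.chR (F (t * 1)))]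
      abel
    rw [e]
    refine (norm_add_le _ _).trans ((add_le_add_left (norm_sub_le _ _) _).trans ?_)
    linarith
  let θ' : H →* Matrix (Fin k) (Fin k) ℝ := ⟨⟨θ, h1⟩, hm⟩
  have : Finite θ'.toHomUnits.range := by
    have : Finite W := hW
    refine Finite.of_injective (fun u : θ'.toHomUnits.range => (⟨(u.1 : Matrix (Fin k) (Fin k) ℝ), ?_⟩ : W))
      fun u v huv => Subtype.ext (Units.ext (congrArg Subtype.val huv))
    obtain ⟨t, ht⟩ := u.2
    rw [← ht]
    exact hθW t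
  refine ⟨θ'.toHomUnits.ker, C, Subgroup.finiteIndex_ker _, fun t ht y => ?_⟩
  have ht' : θ t = 1 := congrArg Units.val (MonoidHom.mem_ker.1 ht)
  have := hθ t 1 y
  rw [ht', Matrix.one_mulVec, mul_one] at this
  simpa only [wordDist, inv_one, one_mul] using this

end Crest.Agent.R182
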